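import Vale.Agent.P269.G1I.All
import Vale.Agent.P269.G2I.BSpec1
import Vale.Agent.P269.G2I.H410.BTools

/-!
# [G2, DB2] WDVV
-/

namespace Vale.Agent.P269.G2.H410

open Finset.HasAntidiagonal (antidiagonal)
open Vale.Agent.P269.CI Vale.Agent.P269.G2

variable {X : CompleteIntersection} {F : ℕ → ℕ → List (Ins X) → ℂ} {n : ℕ} (E : Fam X n)

lemma CB_apply (x : Ix X → RB n) (c b : Ix X) :
    CB E F x c b = ∑ j, x j * qB E F j b c := rfl

lemma actB_apply (a : OB X n) (x : Ix X → RB n) (c : Ix X) :
    actB X n a x c = ∑ b, a c b * x b := rfl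

lemma actB_CB (x y : Ix X → RB n) (c : Ix X) :
    actB X n (CB E F x) y c = ∑ j, ∑ b, x j * y b * qB E F j b c := by
  rw [actB_apply, Finset.sum_comm]
  refine Finset.sum_congr rfl fun b _ => ?_
  rw [CB_apply, Finset.sum_mul]
  exact Finset.sum_congr rfl fun j _ => by ring

/-- **[DB2]** WDVV -/
theorem CB_comm (hF : IsGW X F) (he : Even X.dim) (x y : Ix X → RB n) :
    actB X n (CB E F x) y = actB X n (CB E F y) x := by
  funext c
  rw [actB_CB, actB_CB, Finset.sum_comm]
  refine Finset.sum_congr rfl fun j _ => Finset.sum_congr rfl fun b _ => ?_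
  rw [qB_comm E hF he]
  ring

/-- **[DB2]** -/
theorem CB_mul (hF : IsGW X F) (he : Even X.dim) (x y : Ix X → RB n) :
    CB E F (actB X n (CB E F x) y) = CB E F x * CB E F y := by
  refine Matrix.ext fun c b => ?_
  rw [CB_apply, Matrix.mul_apply]
  have eL : ∑ j, actB X n (CB E F x) y j * qB E F j b c =
      ∑ l, ∑ k, x l * y k * ∑ j, qB E F l k j * qB E F j b c := by
    simp only [actB_CB, Finset.sum_mul, Finset.mul_sum]
    rw [Finset.sum_comm]
    refine Finset.sum_congr rfl fun l _ => ?_
    rw [Finset.sum_comm]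
    refine Finset.sum_congr rfl fun k _ => Finset.sum_congr rfl fun j _ => ?_
    ring
  have eR : ∑ d, CB E F x c d * CB E F y d b =
      ∑ l, ∑ k, x l * y k * ∑ d, qB E F k b d * qB E F l d c := by
    have h9 : ∀ d, CB E F x c d * CB E F y d b =
        ∑ l, ∑ k, x l * y k * (qB E F k b d * qB E F l d c) := by
      intro d
      rw [CB_apply, CB_apply, Finset.sum_mul_sum]
      refine Finset.sum_congr rfl fun l _ => Finset.sum_congr rfl fun k _ => ?_
      ring
    simp only [h9, Finset.mul_sum]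
    rw [Finset.sum_comm]
    refine Finset.sum_congr rfl fun l _ => ?_
    rw [Finset.sum_comm]
  rw [eL, eR]
  refine Finset.sum_congr rfl fun l _ => Finset.sum_congr rfl fun k _ => ?_
  rw [qB_assoc E hF he]

end Vale.Agent.P269.G2.H410
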